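/-!
A second checker for Snaky certificates: a list of claims, computed bottom up on bit masks.  The bits
from 32 on describe a window of side 32; the lowest 32 bits carry no meaning and hold a hash of the
rest, because the kernel hashes a big number by its lowest bits only, and masks that agree on them
make its caches quadratic.  A claim is a pair `(m, z)`: if Maker owns the cells of `m`, Breaker owns
no cell of `z` and no cell of Maker, then Maker to move forces a win.  A leaf is a copy of Snaky.  A
record with a move `x` and children `(mᵢ, zᵢ)` produces the claim computed by `mkM` and `mkZ`, which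
always follows from the children.  A child is an earlier claim moved by a symmetry of the grid.
Written with raw recursors and in continuation passing style, for the kernel.
-/

namespace Vale.Agent.Lib.P062

/-- a table of claims, a binary tree indexed by the bits of the key -/
inductive Tb where
  | nil : Tb
  | leaf (m z : Nat) : Tb
  | node (l r : Tb) : Tb

/-- left subtree -/
noncomputable def Tb.lft (t : Tb) : Tb := Tb.rec Tb.nil (fun _ _ => Tb.nil) (fun l _ _ _ => l) t

/-- right subtree -/
noncomputable def Tb.rgt (t : Tb) : Tb := Tb.rec Tb.nil (fun _ _ => Tb.nil) (fun _ r _ _ => r) t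

/-- bit field of `r` at position `s` with mask `m` -/
def bitf32 (r s m : Nat) : Nat := Nat.land (Nat.shiftRight r s) m

/-- head of a list of chunks -/
noncomputable def hd32 (l : List Nat) : Nat := List.rec 1 (fun a _ _ => a) l

/-- tail of a list of chunks -/
noncomputable def tl32 (l : List Nat) : List Nat := List.rec [] (fun _ t _ => t) l

/-- The bit masks of the eight orientations of Snaky in the window of side 32, normalized to the
corner, with 192 bits for each. -/
def baseTab32 : Nat := 0x200000002000000020000000300000001000000000000000000000000000000000000001e00000003000000000000000100000001000000010000000300000002000000000000000000000000000000000000000f0000001800000000000000010000000300000002000000020000000200000000000000000000000000000000000000030000001e00000000000000020000000300000001000000010000000100000000000000000000000000000000000000180000000f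

/-- widths of the orientations, 4 bits each -/
def dimW32 : Nat := 0x25252525

/-- the mask of a copy: orientation `o` shifted by `pos` -/
def cpat32 (o pos : Nat) : Nat :=
  Nat.shiftLeft (bitf32 baseTab32 (Nat.mul o 192) 0xffffffffffffffffffffffffffffffffffffffffffffffff) pos

/-- the copy `cpat32 o pos` lies in the window -/
def leafOK32 (o pos : Nat) : Bool :=
  and (Nat.ble 32 pos) (and (Nat.ble o 7)
    (Nat.ble (Nat.add (Nat.mod pos 32) (bitf32 dimW32 (Nat.mul o 4) 15)) 32))

/-- lookup of key `i` in a table; when the key is absent, the continuation gets a leaf claim -/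
noncomputable def tget (t : Tb) : Nat → (Nat → Nat → Bool) → Bool :=
  Tb.rec (fun _ k => k (cpat32 0 32) 0) (fun m z _ k => k m z)
    (fun _ _ il ir i k => cond (Nat.beq (Nat.land i 1) 0)
      (il (Nat.shiftRight i 1) k) (ir (Nat.shiftRight i 1) k)) t

/-- the subtrees of a table, passed to a continuation -/
noncomputable def splitK (t : Tb) (f : Tb → Tb → Bool) : Bool :=
  Tb.rec (f Tb.nil Tb.nil) (fun _ _ => f Tb.nil Tb.nil) (fun l r _ _ => f l r) t

/-- insertion of a claim, at depth `d`, in continuation passing style -/
noncomputable def tinsK (d : Nat) : Tb → Nat → Nat → Nat → (Tb → Bool) → Bool :=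
  Nat.rec (fun _ _ m z k => k (Tb.leaf m z))
    (fun _ ih t i m z k => splitK t (fun l r =>
      cond (Nat.beq (Nat.land i 1) 0)
        (ih l (Nat.shiftRight i 1) m z (fun l' => k (Tb.node l' r)))
        (ih r (Nat.shiftRight i 1) m z (fun r' => k (Tb.node l r'))))) d

/-- evaluates a number before it is passed to a continuation, for the kernel -/
noncomputable def forceN (n : Nat) (k : Nat → Bool) : Bool :=
  Nat.rec (k 0) (fun p _ => k (Nat.succ p)) n

/-- the head and the tail of a list of chunks, passed to a continuation -/
noncomputable def popK (l : List Nat) (k : Nat → List Nat → Bool) : Bool :=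
  List.rec (k 1 []) (fun a t _ => k a t) l

/-- puts a hash of the bits from 32 on into the lowest 32 bits -/
def retag (m : Nat) : Nat := Nat.xor m (Nat.mod (Nat.shiftRight m 32) 4294967291)

/-- the stones of the claim produced by a record with move `x`, from the union `mu` of the stones of
the children and the intersection `inter` of their zones -/
def mkM (mu inter x : Nat) : Nat :=
  Nat.xor (Nat.lor mu inter) (Nat.land (Nat.lor mu inter) (Nat.shiftLeft 1 x))

/-- the zone of the claim produced by a record with move `x`, from the union `zu` of the zones of
the children and its stones `m` -/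
def mkZ (zu m x : Nat) : Nat :=
  Nat.xor (Nat.lor zu (Nat.shiftLeft 1 x)) (Nat.land (Nat.lor zu (Nat.shiftLeft 1 x)) m)

/-- the coordinate `u` after a reflection flag `b` and a shift `d` -/
def mapU (b d u : Nat) : Nat :=
  cond (Nat.beq b 0) (Nat.sub (Nat.add u d) 32) (Nat.sub d u)

/-- the shift `d` of the coordinate `u` does not underflow -/
def mapOKU (b d u : Nat) : Bool :=
  cond (Nat.beq b 0) (Nat.ble 32 (Nat.add u d)) (Nat.ble u d)

/-- the first coordinate before the reflections: bit 2 of `g` swaps the two coordinates -/
def mapA (g c : Nat) : Nat :=
  cond (Nat.beq (Nat.land g 4) 0) (Nat.mod c 32) (Nat.div c 32)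

/-- the second coordinate before the reflections -/
def mapB (g c : Nat) : Nat :=
  cond (Nat.beq (Nat.land g 4) 0) (Nat.div c 32) (Nat.mod c 32)

/-- the new first coordinate -/
def mapX (g dx c : Nat) : Nat := mapU (Nat.land g 1) dx (mapA g c)

/-- the new second coordinate -/
def mapY (g dy c : Nat) : Nat := mapU (Nat.land g 2) dy (mapB g c)

/-- the code of a cell under a symmetry of the grid given by `g`, `dx`, `dy` -/
def mapc (g dx dy c : Nat) : Nat := Nat.add (mapX g dx c) (Nat.mul 32 (mapY g dy c))

/-- the image of a cell is computed without underflow and stays in the columns of the window and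
above the lowest 32 bits -/
def mapOK (g dx dy c : Nat) : Bool :=
  and (and (mapOKU (Nat.land g 1) dx (mapA g c)) (mapOKU (Nat.land g 2) dy (mapB g c)))
    (and (Nat.ble (Nat.add (mapX g dx c) 1) 32) (Nat.ble 1 (mapY g dy c)))

/-- the index of the highest bit of `m`, by binary search over `2 ^ i` bits (the kernel has no fast
`Nat.log2`); the soundness proof needs nothing about this value -/
def hbR (i : Nat) : Nat → Nat :=
  Nat.rec (fun _ => 0)
    (fun j ih m => cond (Nat.beq (Nat.shiftRight m (Nat.pow 2 j)) 0) (ih m)
      (Nat.add (Nat.pow 2 j) (ih (Nat.shiftRight m (Nat.pow 2 j))))) i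

/-- The image of the bits from 32 on of the mask `m` under a symmetry, added to `acc`, passed to the
continuation `k`. -/
noncomputable def imgK (g dx dy f : Nat) : Nat → Nat → (Nat → Bool) → Bool :=
  Nat.rec (fun _ _ _ => false)
    (fun _ ih m acc k =>
      cond (Nat.ble m 4294967295) (k acc)
        (forceN (hbR 11 m) (fun c =>
          cond (mapOK g dx dy c)
            (forceN (Nat.xor m (Nat.shiftLeft 1 c)) (fun m' =>
              forceN (Nat.lor acc (Nat.shiftLeft 1 (mapc g dx dy c))) (fun acc' => ih m' acc' k)))
            false))) f

/-- a start value for the lowest bits of an image, a hash of the mask and the symmetry -/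
def saltI (g dx dy m : Nat) : Nat :=
  Nat.mod (Nat.add (Nat.land m 4294967295)
    (Nat.mul (Nat.add (Nat.add g (Nat.mul 8 dx)) (Nat.mul 1024 dy)) 2654435761)) 4294967291

/-- Lookup of the claim `key` of the table, moved by a symmetry.  The symmetry with `g = 0`,
`dx = 32`, `dy = 32` is the identity and needs no computation. -/
noncomputable def refImg (t : Tb) (key g dx dy : Nat) (k : Nat → Nat → Bool) : Bool :=
  forceN g (fun g' => forceN dx (fun dx' => forceN dy (fun dy' => forceN key (fun key' =>
    tget t key' (fun m z =>
      cond (and (and (Nat.beq g' 0) (Nat.beq dx' 32)) (Nat.beq dy' 32))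
        (k m z)
        (imgK g' dx' dy' 1100 m (saltI g' dx' dy' m) (fun m' =>
          imgK g' dx' dy' 1100 z (saltI g' dx' dy' z) (fun z' => k m' z'))))))))

/-- continuation of the loop over children -/
abbrev KK := Nat → Nat → Nat → Nat → List Nat → Bool

/-- One step of the loop over further children of a record: a bit says whether a further child
follows, then its reference of 31 bits: key, `g`, `dx`, `dy`. -/
noncomputable def kstep (t : Tb) (k : KK) (ih : KK) (mu zu inter buf : Nat) (rest : List Nat) : Bool :=
  cond (Nat.beq (Nat.land buf 1) 0)
    (forceN (Nat.shiftRight buf 1) (fun b => k mu zu inter b rest))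
    (refImg t (bitf32 buf 1 16383) (bitf32 buf 15 7) (bitf32 buf 18 127) (bitf32 buf 25 127)
      (fun m z =>
        forceN (Nat.lor mu m) (fun mu' => forceN (Nat.lor zu z) (fun zu' =>
          forceN (Nat.land inter z) (fun inter' => forceN (Nat.shiftRight buf 32) (fun b' =>
            ih mu' zu' inter' b' rest))))))

/-- The loop over further children of a record. -/
noncomputable def kloop (t : Tb) (k : KK) (f : Nat) : KK :=
  Nat.rec (fun _ _ _ _ _ => false)
    (fun _ ih mu zu inter buf rest =>
      cond (Nat.beq buf 1)
        (popK rest (fun a r => kstep t k ih mu zu inter a r))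
        (kstep t k ih mu zu inter buf rest)) f

/-- the end of a record: the claim is computed and stored -/
noncomputable def finB (rc : Nat → Tb → Nat → List Nat → Nat → Nat → Bool) (id : Nat) (t : Tb)
    (x mu zu inter b : Nat) (r : List Nat) : Bool :=
  forceN (retag (mkM mu inter x)) (fun mm => forceN (retag (mkZ zu mm x)) (fun zz =>
    tinsK 14 t id mm zz (fun t' => forceN (Nat.add id 1) (fun id' => rc id' t' b r mm zz))))

/-- the part of a step after the buffer has been refilled -/
noncomputable def stepB (rc : Nat → Tb → Nat → List Nat → Nat → Nat → Bool) (id : Nat) (t : Tb)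
    (buf : Nat) (rest : List Nat) : Bool :=
  cond (Nat.beq (Nat.land buf 1) 0)
    (cond (leafOK32 (bitf32 buf 1 7) (bitf32 buf 4 2047))
      (forceN (cpat32 (bitf32 buf 1 7) (bitf32 buf 4 2047)) (fun mm =>
        tinsK 14 t id mm 0 (fun t' => forceN (Nat.add id 1) (fun id' =>
          forceN (Nat.shiftRight buf 15) (fun b' => rc id' t' b' rest mm 0))))) false)
    (forceN (Nat.add (bitf32 buf 1 1023) 32) (fun x => forceN (Nat.shiftRight buf 42) (fun b' =>
      refImg t (bitf32 buf 11 16383) (bitf32 buf 25 7) (bitf32 buf 28 127) (bitf32 buf 35 127)
        (fun m z => kloop t (fun mu zu inter b r => finB rc id t x mu zu inter b r)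
          2048 m z z b' rest))))

/-- Run over `f` records; the final check gets the last claim. -/
noncomputable def runD (fin : Nat → Nat → Bool) (f : Nat) :
    Nat → Tb → Nat → List Nat → Nat → Nat → Bool :=
  Nat.rec (fun _ _ _ _ lm lz => fin lm lz)
    (fun _ ih id t buf rest _ _ =>
      cond (Nat.beq buf 1)
        (popK rest (fun a r => stepB ih id t a r))
        (stepB ih id t buf rest)) f

/-- the final check for the reply at `(1, 0)` to the first stone at the origin: the code of the
origin is `560`, and the code of `(1, 0)` is `561` -/
def finR10 (m z : Nat) : Bool :=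
  and (Nat.beq (Nat.lor (Nat.shiftRight m 32) (Nat.shiftLeft 1 528)) (Nat.shiftLeft 1 528))
    (not (Nat.testBit z 561))

end Vale.Agent.Lib.P062
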